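import Mathlib
import Vale.Agent.Lib.P335.helper26.BipDefs

/-!
# Switch connectivity of margin matrices inside a row set

Two margin matrices that agree outside the row set `p` are connected by switches whose rows
lie in `p` (`switch_connected`).  The proof is by a distance decreasing switch.
-/

namespace Vale.Agent.Lib.P335.Bip

open Finset

section swMat

variable {m n : ℕ}

namespace H36

theorem swMat_fst (x : Mat m n) {i i' : Fin m} (j j' : Fin n) (hne : i ≠ i') :
    swMat x i i' j j' i = insert j' ((x i).erase j) := by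
  unfold swMat
  rw [Function.update_of_ne hne, Function.update_self]

theorem swMat_snd (x : Mat m n) (i i' : Fin m) (j j' : Fin n) :
    swMat x i i' j j' i' = insert j ((x i').erase j') := by
  unfold swMat
  rw [Function.update_self]

theorem swMat_other (x : Mat m n) (i i' : Fin m) (j j' : Fin n) (a : Fin m) (h1 : a ≠ i)
    (h2 : a ≠ i') : swMat x i i' j j' a = x a := by
  unfold swMat
  rw [Function.update_of_ne h2, Function.update_of_ne h1]

theorem card_swMat (x : Mat m n) {i i' : Fin m} {j j' : Fin n} (hne : i ≠ i')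
    (h1 : j ∈ x i) (h2 : j' ∉ x i) (h3 : j' ∈ x i') (h4 : j ∉ x i') (a : Fin m) :
    (swMat x i i' j j' a).card = (x a).card := by
  by_cases ha' : a = i'
  · subst ha'
    rw [swMat_snd, Finset.card_insert_of_notMem (fun h => h4 (Finset.mem_of_mem_erase h))]
    exact Finset.card_erase_add_one h3
  · by_cases ha : a = i
    · subst ha
      rw [swMat_fst x j j' hne,
        Finset.card_insert_of_notMem (fun h => h2 (Finset.mem_of_mem_erase h))]
      exact Finset.card_erase_add_one h1
    · rw [swMat_other x i i' j j' a ha ha']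

theorem colSum_swMat (x : Mat m n) {i i' : Fin m} {j j' : Fin n} (hne : i ≠ i') (hjj : j ≠ j')
    (h1 : j ∈ x i) (h2 : j' ∉ x i) (h3 : j' ∈ x i') (h4 : j ∉ x i') (k : Fin n) :
    colSum (swMat x i i' j j') k = colSum x k := by
  unfold colSum
  by_cases hk : k = j
  · subst hk
    refine Finset.card_equiv (Equiv.swap i i') (fun a => ?_)
    simp only [Finset.mem_filter, Finset.mem_univ, true_and]
    by_cases ha' : a = i'
    · subst ha'
      rw [swMat_snd, Equiv.swap_apply_right]
      exact ⟨fun _ => h1, fun _ => Finset.mem_insert_self _ _⟩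
    · by_cases ha : a = i
      · subst ha
        rw [swMat_fst x k j' hne, Equiv.swap_apply_left]
        constructor
        · intro h
          rw [Finset.mem_insert] at h
          rcases h with h | h
          · exact absurd h hjj
          · exact absurd rfl (Finset.ne_of_mem_erase h)
        · intro h
          exact absurd h h4
      · rw [swMat_other x i i' k j' a ha ha', Equiv.swap_apply_of_ne_of_ne ha ha']
  · by_cases hk' : k = j'
    · subst hk'
      refine Finset.card_equiv (Equiv.swap i i') (fun a => ?_)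
      simp only [Finset.mem_filter, Finset.mem_univ, true_and]
      by_cases ha' : a = i'
      · subst ha'
        rw [swMat_snd, Equiv.swap_apply_right]
        constructor
        · intro h
          rw [Finset.mem_insert] at h
          rcases h with h | h
          · exact absurd h hk
          · exact absurd rfl (Finset.ne_of_mem_erase h)
        · intro h
          exact absurd h h2
      · by_cases ha : a = i
        · subst ha
          rw [swMat_fst x j k hne, Equiv.swap_apply_left]
          exact ⟨fun _ => h3, fun _ => Finset.mem_insert_self _ _⟩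
        · rw [swMat_other x i i' j k a ha ha', Equiv.swap_apply_of_ne_of_ne ha ha']
    · congr 1
      refine Finset.filter_congr (fun a _ => ?_)
      by_cases ha' : a = i'
      · subst ha'
        rw [swMat_snd, Finset.mem_insert, Finset.mem_erase]
        exact ⟨fun h => h.elim (fun h => absurd h hk) (fun h => h.2), fun h => Or.inr ⟨hk', h⟩⟩
      · by_cases ha : a = i
        · subst ha
          rw [swMat_fst x j j' hne, Finset.mem_insert, Finset.mem_erase]
          exact ⟨fun h => h.elim (fun h => absurd h hk') (fun h => h.2), fun h => Or.inr ⟨hk, h⟩⟩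
        · rw [swMat_other x i i' j j' a ha ha']

theorem mask_swMat (p : Finset (Fin m)) (x : Mat m n) (i i' : Fin m) (j j' : Fin n)
    (hi : i ∈ p) (hi' : i' ∈ p) : mask p (swMat x i i' j j') = mask p x := by
  funext a
  unfold mask
  by_cases ha : a ∈ p
  · rw [if_pos ha, if_pos ha]
  · rw [if_neg ha, if_neg ha]
    exact swMat_other x i i' j j' a (fun h => ha (h ▸ hi)) (fun h => ha (h ▸ hi'))

theorem eq_of_mask_eq (p : Finset (Fin m)) (x y : Mat m n) (h : mask p x = mask p y)
    (a : Fin m) (ha : a ∉ p) : x a = y a := by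
  have h1 := congrFun h a
  unfold mask at h1
  rwa [if_neg ha, if_neg ha] at h1

end H36

open H36 in
theorem isSwitchIn_symm (p : Finset (Fin m)) (x y : Mat m n) :
    IsSwitchIn p x y → IsSwitchIn p y x := by
  rintro ⟨i, i', j, j', hi, hi', hne, hjj, h1, h2, h3, h4, rfl⟩
  refine ⟨i, i', j', j, hi, hi', hne, hjj.symm, ?_, ?_, ?_, ?_, ?_⟩
  · rw [swMat_fst x j j' hne]
    exact Finset.mem_insert_self _ _
  · rw [swMat_fst x j j' hne, Finset.mem_insert]
    rintro (h | h)
    · exact hjj h
    · exact Finset.ne_of_mem_erase h rfl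
  · rw [swMat_snd]
    exact Finset.mem_insert_self _ _
  · rw [swMat_snd, Finset.mem_insert]
    rintro (h | h)
    · exact hjj h.symm
    · exact Finset.ne_of_mem_erase h rfl
  · funext a
    by_cases ha' : a = i'
    · subst ha'
      rw [swMat_snd, swMat_snd]
      ext k
      simp only [Finset.mem_insert, Finset.mem_erase]
      constructor
      · intro hk
        by_cases hkj : k = j'
        · exact Or.inl hkj
        · exact Or.inr ⟨fun h => h4 (h ▸ hk), Or.inr ⟨hkj, hk⟩⟩
      · rintro (rfl | ⟨hkj, rfl | ⟨_, hk⟩⟩)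
        · exact h3
        · exact absurd rfl hkj
        · exact hk
    · by_cases ha : a = i
      · subst ha
        rw [swMat_fst _ j' j hne, swMat_fst x j j' hne]
        ext k
        simp only [Finset.mem_insert, Finset.mem_erase]
        constructor
        · intro hk
          by_cases hkj : k = j
          · exact Or.inl hkj
          · exact Or.inr ⟨fun h => h2 (h ▸ hk), Or.inr ⟨hkj, hk⟩⟩
        · rintro (rfl | ⟨hkj, rfl | ⟨_, hk⟩⟩)
          · exact h1
          · exact absurd rfl hkj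
          · exact hk
      · rw [swMat_other _ i i' j' j a ha ha', swMat_other x i i' j j' a ha ha']

end swMat

section connected

variable {m n : ℕ} {r : Fin m → ℕ} {c : Fin n → ℕ}

namespace H36

/-- One sided row distance between two matrices. -/
def rdist (x y : Mat m n) : ℕ := ∑ i, (x i \ y i).card

theorem rdist_comm (x y : Om m n r c) : rdist x.1 y.1 = rdist y.1 x.1 := by
  unfold rdist
  exact Finset.sum_congr rfl (fun i _ => Finset.card_sdiff_comm (by rw [x.2.1 i, y.2.1 i]))

/-- Column counting identity for two columns. -/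
theorem colSum_add_card (z : Mat m n) (j1 j2 : Fin n) :
    colSum z j1 + (univ.filter (fun i => j2 ∈ z i ∧ j1 ∉ z i)).card =
      colSum z j2 + (univ.filter (fun i => j1 ∈ z i ∧ j2 ∉ z i)).card := by
  unfold colSum
  rw [Finset.card_filter, Finset.card_filter, Finset.card_filter, Finset.card_filter,
    ← Finset.sum_add_distrib, ← Finset.sum_add_distrib]
  refine Finset.sum_congr rfl (fun i _ => ?_)
  by_cases h1 : j1 ∈ z i <;> by_cases h2 : j2 ∈ z i <;> simp [h1, h2]

/-- The key claim: a second row in which a distance decreasing switch is possible. -/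
theorem exists_row (x y : Om m n r c) (i1 : Fin m) (j1 j2 : Fin n)
    (h1 : j1 ∈ x.1 i1) (h1' : j1 ∉ y.1 i1) (h2 : j2 ∈ y.1 i1) (h2' : j2 ∉ x.1 i1) :
    ∃ i2, i2 ≠ i1 ∧
      ((j2 ∈ x.1 i2 ∧ j1 ∉ x.1 i2 ∧ ¬(j2 ∈ y.1 i2 ∧ j1 ∉ y.1 i2)) ∨
        (j1 ∈ y.1 i2 ∧ j2 ∉ y.1 i2 ∧ ¬(j1 ∈ x.1 i2 ∧ j2 ∉ x.1 i2))) := by
  by_contra hcon
  push Not at hcon
  have hA : ∀ i2, i2 ≠ i1 → j2 ∈ x.1 i2 → j1 ∉ x.1 i2 → (j2 ∈ y.1 i2 ∧ j1 ∉ y.1 i2) :=
    fun i2 hi a b => (hcon i2 hi).1 a b
  have hB : ∀ i2, i2 ≠ i1 → j1 ∈ y.1 i2 → j2 ∉ y.1 i2 → (j1 ∈ x.1 i2 ∧ j2 ∉ x.1 i2) :=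
    fun i2 hi a b => (hcon i2 hi).2 a b
  have hx := colSum_add_card x.1 j1 j2
  have hy := colSum_add_card y.1 j1 j2
  rw [x.2.2 j1, x.2.2 j2] at hx
  rw [y.2.2 j1, y.2.2 j2] at hy
  have hSB : (univ.filter (fun i => j2 ∈ x.1 i ∧ j1 ∉ x.1 i)).card <
      (univ.filter (fun i => j2 ∈ y.1 i ∧ j1 ∉ y.1 i)).card := by
    apply Finset.card_lt_card
    refine ⟨?_, ?_⟩
    · intro i hi
      rw [Finset.mem_filter] at hi ⊢
      have hne : i ≠ i1 := fun h => hi.2.2 (h ▸ h1)
      exact ⟨Finset.mem_univ _, hA i hne hi.2.1 hi.2.2⟩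
    · intro hsub
      have hmem : i1 ∈ univ.filter (fun i => j2 ∈ y.1 i ∧ j1 ∉ y.1 i) :=
        Finset.mem_filter.2 ⟨Finset.mem_univ _, h2, h1'⟩
      have := hsub hmem
      rw [Finset.mem_filter] at this
      exact this.2.2 h1
  have hSA : (univ.filter (fun i => j1 ∈ y.1 i ∧ j2 ∉ y.1 i)).card <
      (univ.filter (fun i => j1 ∈ x.1 i ∧ j2 ∉ x.1 i)).card := by
    apply Finset.card_lt_card
    refine ⟨?_, ?_⟩
    · intro i hi
      rw [Finset.mem_filter] at hi ⊢
      have hne : i ≠ i1 := fun h => h1' (h ▸ hi.2.1)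
      exact ⟨Finset.mem_univ _, hB i hne hi.2.1 hi.2.2⟩
    · intro hsub
      have hmem : i1 ∈ univ.filter (fun i => j1 ∈ x.1 i ∧ j2 ∉ x.1 i) :=
        Finset.mem_filter.2 ⟨Finset.mem_univ _, h1, h2'⟩
      have := hsub hmem
      rw [Finset.mem_filter] at this
      exact h1' this.2.1
  omega

/-- One distance decreasing switch. -/
theorem step (p : Finset (Fin m)) (x y : Om m n r c) (hmask : mask p x.1 = mask p y.1)
    (i1 i2 : Fin m) (j1 j2 : Fin n) (hi : i1 ≠ i2)
    (h1 : j1 ∈ x.1 i1) (h1' : j1 ∉ y.1 i1) (h2 : j2 ∈ y.1 i1) (h2' : j2 ∉ x.1 i1)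
    (a1 : j2 ∈ x.1 i2) (a2 : j1 ∉ x.1 i2) (a3 : ¬(j2 ∈ y.1 i2 ∧ j1 ∉ y.1 i2)) :
    ∃ x' : Om m n r c, IsSwitchIn p x.1 x'.1 ∧ mask p x'.1 = mask p y.1 ∧
      rdist x'.1 y.1 < rdist x.1 y.1 := by
  have hjj : j1 ≠ j2 := fun h => h2' (h ▸ h1)
  have hi1p : i1 ∈ p := by
    by_contra hnp
    have := eq_of_mask_eq p x.1 y.1 hmask i1 hnp
    exact h1' (this ▸ h1)
  have hi2p : i2 ∈ p := by
    by_contra hnp
    have := eq_of_mask_eq p x.1 y.1 hmask i2 hnp
    exact a3 ⟨this ▸ a1, fun hc => a2 (this.symm ▸ hc)⟩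
  refine ⟨⟨swMat x.1 i1 i2 j1 j2,
    fun a => (card_swMat x.1 hi h1 h2' a1 a2 a).trans (x.2.1 a),
    fun k => (colSum_swMat x.1 hi hjj h1 h2' a1 a2 k).trans (x.2.2 k)⟩, ?_, ?_, ?_⟩
  · exact ⟨i1, i2, j1, j2, hi1p, hi2p, hi, hjj, h1, h2', a1, a2, rfl⟩
  · exact (mask_swMat p x.1 i1 i2 j1 j2 hi1p hi2p).trans hmask
  · unfold rdist
    have hrow1 : (swMat x.1 i1 i2 j1 j2 i1 \ y.1 i1).card < (x.1 i1 \ y.1 i1).card := by
      rw [swMat_fst x.1 j1 j2 hi]
      have hsub : insert j2 ((x.1 i1).erase j1) \ y.1 i1 ⊆ (x.1 i1 \ y.1 i1).erase j1 := by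
        intro k hk
        rw [Finset.mem_sdiff, Finset.mem_insert, Finset.mem_erase] at hk
        rw [Finset.mem_erase, Finset.mem_sdiff]
        rcases hk.1 with hk1 | hk1
        · exact absurd (hk1 ▸ h2) hk.2
        · exact ⟨hk1.1, hk1.2, hk.2⟩
      exact lt_of_le_of_lt (Finset.card_le_card hsub)
        (Finset.card_erase_lt_of_mem (Finset.mem_sdiff.2 ⟨h1, h1'⟩))
    have hrow2 : (swMat x.1 i1 i2 j1 j2 i2 \ y.1 i2).card ≤ (x.1 i2 \ y.1 i2).card := by
      rw [swMat_snd]
      by_cases hj1y : j1 ∈ y.1 i2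
      · apply Finset.card_le_card
        intro k hk
        rw [Finset.mem_sdiff, Finset.mem_insert, Finset.mem_erase] at hk
        rw [Finset.mem_sdiff]
        rcases hk.1 with hk1 | hk1
        · exact absurd (hk1 ▸ hj1y) hk.2
        · exact ⟨hk1.2, hk.2⟩
      · have hj2y : j2 ∉ y.1 i2 := fun h => a3 ⟨h, hj1y⟩
        have hsub : insert j1 ((x.1 i2).erase j2) \ y.1 i2 ⊆
            insert j1 ((x.1 i2 \ y.1 i2).erase j2) := by
          intro k hk
          rw [Finset.mem_sdiff, Finset.mem_insert, Finset.mem_erase] at hk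
          rw [Finset.mem_insert, Finset.mem_erase, Finset.mem_sdiff]
          rcases hk.1 with hk1 | hk1
          · exact Or.inl hk1
          · exact Or.inr ⟨hk1.1, hk1.2, hk.2⟩
        calc (insert j1 ((x.1 i2).erase j2) \ y.1 i2).card
            ≤ (insert j1 ((x.1 i2 \ y.1 i2).erase j2)).card := Finset.card_le_card hsub
          _ ≤ ((x.1 i2 \ y.1 i2).erase j2).card + 1 := Finset.card_insert_le _ _
          _ = (x.1 i2 \ y.1 i2).card :=
              Finset.card_erase_add_one (Finset.mem_sdiff.2 ⟨a1, hj2y⟩)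
    refine Finset.sum_lt_sum (fun a _ => ?_) ⟨i1, Finset.mem_univ _, hrow1⟩
    by_cases ha2 : a = i2
    · subst ha2
      exact hrow2
    · by_cases ha1 : a = i1
      · subst ha1
        exact hrow1.le
      · change (swMat x.1 i1 i2 j1 j2 a \ y.1 a).card ≤ (x.1 a \ y.1 a).card
        rw [swMat_other x.1 i1 i2 j1 j2 a ha1 ha2]

theorem rtg_symm {α : Type*} {rel : α → α → Prop} (hr : ∀ a b, rel a b → rel b a) {a b : α}
    (h : Relation.ReflTransGen rel a b) : Relation.ReflTransGen rel b a := by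
  induction h with
  | refl => exact Relation.ReflTransGen.refl
  | tail _ hbc ih => exact Relation.ReflTransGen.head (hr _ _ hbc) ih

theorem switch_connected_aux (p : Finset (Fin m)) (d : ℕ) :
    ∀ x y : Om m n r c, mask p x.1 = mask p y.1 → rdist x.1 y.1 = d →
      Relation.ReflTransGen (fun a b : Om m n r c => IsSwitchIn p a.1 b.1) x y := by
  induction d using Nat.strong_induction_on with
  | _ d ih =>
    intro x y hmask hd
    by_cases hxy : x = y
    · subst hxy
      exact Relation.ReflTransGen.refl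
    · obtain ⟨i1, hi1⟩ : ∃ i1, x.1 i1 ≠ y.1 i1 := by
        by_contra hcon
        push Not at hcon
        exact hxy (Subtype.ext (funext hcon))
      obtain ⟨j1, hj1, hj1'⟩ : ∃ j1, j1 ∈ x.1 i1 ∧ j1 ∉ y.1 i1 := by
        by_contra hcon
        push Not at hcon
        exact hi1 (Finset.eq_of_subset_of_card_le hcon (by rw [x.2.1 i1, y.2.1 i1]))
      obtain ⟨j2, hj2, hj2'⟩ : ∃ j2, j2 ∈ y.1 i1 ∧ j2 ∉ x.1 i1 := by
        by_contra hcon
        push Not at hcon
        exact hi1 (Finset.eq_of_subset_of_card_le hcon (by rw [x.2.1 i1, y.2.1 i1])).symm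
      obtain ⟨i2, hi2, hAB⟩ := exists_row x y i1 j1 j2 hj1 hj1' hj2 hj2'
      rcases hAB with ⟨a1, a2, a3⟩ | ⟨b1, b2, b3⟩
      · obtain ⟨x', hsw, hmask', hlt⟩ :=
          step p x y hmask i1 i2 j1 j2 hi2.symm hj1 hj1' hj2 hj2' a1 a2 a3
        exact Relation.ReflTransGen.head hsw (ih _ (hd ▸ hlt) x' y hmask' rfl)
      · obtain ⟨y', hsw, hmask', hlt⟩ :=
          step p y x hmask.symm i1 i2 j2 j1 hi2.symm hj2 hj2' hj1 hj1' b1 b2 b3
        have hlt' : rdist y'.1 x.1 < d := by
          rw [← hd, rdist_comm x y]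
          exact hlt
        have h1 : Relation.ReflTransGen (fun a b : Om m n r c => IsSwitchIn p a.1 b.1) y' x :=
          ih _ hlt' y' x hmask' rfl
        have h2 : Relation.ReflTransGen (fun a b : Om m n r c => IsSwitchIn p a.1 b.1) x y' :=
          rtg_symm (fun a b hab => isSwitchIn_symm p a.1 b.1 hab) h1
        exact Relation.ReflTransGen.tail h2 (isSwitchIn_symm p y.1 y'.1 hsw)

end H36

theorem switch_connected {m n : ℕ} {r : Fin m → ℕ} {c : Fin n → ℕ} (p : Finset (Fin m))
    (x y : Om m n r c) (h : mask p x.1 = mask p y.1) :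
    Relation.ReflTransGen (fun a b : Om m n r c => IsSwitchIn p a.1 b.1) x y :=
  H36.switch_connected_aux p _ x y h rfl

end connected

end Vale.Agent.Lib.P335.Bip
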