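import Mathlib
import Vale.Agent.Lib.P335.helper26.ThreeDefs
import Vale.Agent.Lib.P335.helper46.Commute

/-!
# Resampling operators of disjoint row sets commute

This is the statement of block B1 under the name `R_comm`; the proof is the theorem
`R_comm_of_disjoint` of `Vale.Agent.Lib.P335.helper46.Commute`.
-/

namespace Vale.Agent.Lib.P335.Bip

open Finset

theorem R_comm {m n : ℕ} {r : Fin m → ℕ} {c : Fin n → ℕ} (p q : Finset (Fin m))
    (hpq : Disjoint p q) (f : Om m n r c → ℝ) : R p (R q f) = R q (R p f) :=
  R_comm_of_disjoint p q hpq f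

end Vale.Agent.Lib.P335.Bip
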