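import Mathlib

/-!
Up and down operators on the levels of the subset lattice of a finite set `D`
(functions are defined on all finsets; only their values on the subsets of `D` matter).
Toolkit for the pure Johnson inequality (block G3 of the graph case of P335).
-/

namespace Vale.Agent.Lib.P335.H36J

open Finset

variable {α : Type*} [DecidableEq α]

/-- squared norm of `f` on the `m`-subsets of `D` -/
def nsq (D : Finset α) (m : ℕ) (f : Finset α → ℝ) : ℝ := ∑ S ∈ D.powersetCard m, f S ^ 2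

/-- inner product on the `m`-subsets of `D` -/
def ipr (D : Finset α) (m : ℕ) (f g : Finset α → ℝ) : ℝ := ∑ S ∈ D.powersetCard m, f S * g S

/-- down operator: sum over the supersets with one more element of `D` -/
def Dn (D : Finset α) (f : Finset α → ℝ) (T : Finset α) : ℝ := ∑ x ∈ D \ T, f (insert x T)

/-- up operator: sum over the subsets with one element less -/
def Up (f : Finset α → ℝ) (R : Finset α) : ℝ := ∑ x ∈ R, f (R.erase x)

/-- one-point sums: sum of `f` over the `m`-subsets containing `v` -/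
def Av (D : Finset α) (m : ℕ) (f : Finset α → ℝ) (v : α) : ℝ :=
  ∑ S ∈ D.powersetCard m, if v ∈ S then f S else 0

/-- two-point sums: sum of `f` over the `m`-subsets containing `w` and `z` -/
def Bv (D : Finset α) (m : ℕ) (f : Finset α → ℝ) (w z : α) : ℝ :=
  ∑ S ∈ D.powersetCard m, if w ∈ S ∧ z ∈ S then f S else 0

/-- linear functions of the indicator vector -/
def phi (a : α → ℝ) (S : Finset α) : ℝ := ∑ v ∈ S, a v

theorem nsq_nonneg (D : Finset α) (m : ℕ) (f : Finset α → ℝ) : 0 ≤ nsq D m f :=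
  Finset.sum_nonneg fun _ _ => sq_nonneg _

theorem nsq_eq_ipr (D : Finset α) (m : ℕ) (f : Finset α → ℝ) : nsq D m f = ipr D m f f := by
  unfold nsq ipr
  exact Finset.sum_congr rfl fun S _ => by ring

/-- flag double counting -/
theorem flag_sum (D : Finset α) (m : ℕ) (F : Finset α → α → ℝ) :
    ∑ T ∈ D.powersetCard m, ∑ x ∈ D \ T, F T x
      = ∑ S ∈ D.powersetCard (m + 1), ∑ x ∈ S, F (S.erase x) x := by
  rw [Finset.sum_sigma', Finset.sum_sigma']
  refine Finset.sum_bij' (fun p _ => ⟨insert p.2 p.1, p.2⟩) (fun q _ => ⟨q.1.erase q.2, q.2⟩)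
    ?_ ?_ ?_ ?_ ?_
  · rintro ⟨T, x⟩ h
    simp only [mem_sigma, mem_powersetCard, mem_sdiff] at h ⊢
    obtain ⟨⟨hT, hc⟩, hx, hxT⟩ := h
    refine ⟨⟨?_, ?_⟩, mem_insert_self _ _⟩
    · exact insert_subset hx hT
    · rw [card_insert_of_notMem hxT, hc]
  · rintro ⟨S, x⟩ h
    simp only [mem_sigma, mem_powersetCard, mem_sdiff] at h ⊢
    obtain ⟨⟨hS, hc⟩, hx⟩ := h
    refine ⟨⟨(erase_subset _ _).trans hS, ?_⟩, hS hx, ?_⟩
    · rw [card_erase_of_mem hx, hc]; rfl
    · exact notMem_erase _ _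
  · rintro ⟨T, x⟩ h
    simp only [mem_sigma, mem_powersetCard, mem_sdiff] at h
    obtain ⟨_, _, hxT⟩ := h
    simp [erase_insert hxT]
  · rintro ⟨S, x⟩ h
    simp only [mem_sigma, mem_powersetCard] at h
    obtain ⟨_, hx⟩ := h
    simp [insert_erase hx]
  · rintro ⟨T, x⟩ h
    simp only [mem_sigma, mem_powersetCard, mem_sdiff] at h
    obtain ⟨_, _, hxT⟩ := h
    simp [erase_insert hxT]

/-- adjointness of up and down -/
theorem ipr_Dn (D : Finset α) (m : ℕ) (g f : Finset α → ℝ) :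
    ipr D m g (Dn D f) = ipr D (m + 1) (Up g) f := by
  unfold ipr Dn Up
  have h1 : ∑ T ∈ D.powersetCard m, g T * ∑ x ∈ D \ T, f (insert x T)
      = ∑ T ∈ D.powersetCard m, ∑ x ∈ D \ T, g T * f (insert x T) :=
    Finset.sum_congr rfl fun T _ => Finset.mul_sum _ _ _
  rw [h1, flag_sum D m (fun T x => g T * f (insert x T))]
  refine Finset.sum_congr rfl fun S _ => ?_
  rw [Finset.sum_mul]
  refine Finset.sum_congr rfl fun x hx => ?_
  rw [insert_erase hx]

theorem Dn_Up (D : Finset α) (g : Finset α → ℝ) (T : Finset α) :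
    Dn D (Up g) T = ((D \ T).card : ℝ) * g T
      + ∑ x ∈ D \ T, ∑ y ∈ T, g (insert x (T.erase y)) := by
  unfold Dn Up
  have h1 : ∀ x ∈ D \ T, ∑ y ∈ insert x T, g ((insert x T).erase y)
      = g T + ∑ y ∈ T, g (insert x (T.erase y)) := by
    intro x hx
    have hxT : x ∉ T := (mem_sdiff.1 hx).2
    rw [Finset.sum_insert hxT, erase_insert hxT]
    congr 1
    refine Finset.sum_congr rfl fun y hy => ?_
    have hyx : x ≠ y := fun h => hxT (h ▸ hy)
    rw [erase_insert_of_ne hyx]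
  rw [Finset.sum_congr rfl h1, Finset.sum_add_distrib, Finset.sum_const, nsmul_eq_mul]

theorem Up_Dn (D : Finset α) (g : Finset α → ℝ) {T : Finset α} (hT : T ⊆ D) :
    Up (Dn D g) T = (T.card : ℝ) * g T
      + ∑ x ∈ D \ T, ∑ y ∈ T, g (insert x (T.erase y)) := by
  unfold Dn Up
  have h1 : ∀ y ∈ T, ∑ x ∈ D \ T.erase y, g (insert x (T.erase y))
      = g T + ∑ x ∈ D \ T, g (insert x (T.erase y)) := by
    intro y hy
    have hs : D \ T.erase y = insert y (D \ T) := by
      ext x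
      simp only [mem_sdiff, mem_erase, mem_insert]
      constructor
      · rintro ⟨hxD, hx⟩
        by_cases hxy : x = y
        · exact Or.inl hxy
        · exact Or.inr ⟨hxD, fun hxT => hx ⟨hxy, hxT⟩⟩
      · rintro (rfl | ⟨hxD, hxT⟩)
        · exact ⟨hT hy, fun h => h.1 rfl⟩
        · exact ⟨hxD, fun h => hxT h.2⟩
    have hy' : y ∉ D \ T := fun h => (mem_sdiff.1 h).2 hy
    rw [hs, Finset.sum_insert hy', insert_erase hy]
  rw [Finset.sum_congr rfl h1, Finset.sum_add_distrib, Finset.sum_const, nsmul_eq_mul,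
    Finset.sum_comm]

/-- commutation relation in norm form -/
theorem nsq_Up_sub (D : Finset α) (m : ℕ) (g : Finset α → ℝ) :
    nsq D (m + 2) (Up g) - nsq D m (Dn D g)
      = ((D.card : ℝ) - 2 * ((m : ℝ) + 1)) * nsq D (m + 1) g := by
  have e1 : nsq D (m + 2) (Up g) = ipr D (m + 1) g (Dn D (Up g)) := by
    rw [nsq_eq_ipr, ipr_Dn]
  have e2 : nsq D m (Dn D g) = ipr D (m + 1) (Up (Dn D g)) g := by
    rw [nsq_eq_ipr, ipr_Dn]
  rw [e1, e2]
  unfold ipr nsq
  rw [← Finset.sum_sub_distrib, Finset.mul_sum]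
  refine Finset.sum_congr rfl fun T hT => ?_
  obtain ⟨hTD, hc⟩ := mem_powersetCard.1 hT
  rw [Dn_Up D g T, Up_Dn D g hTD, card_sdiff_of_subset hTD, hc]
  have hle : m + 1 ≤ D.card := hc ▸ card_le_card hTD
  rw [Nat.cast_sub hle]
  push_cast
  ring

/-- Cauchy-Schwarz through the adjoint -/
theorem nsq_Dn_sq_le (D : Finset α) (m : ℕ) (g : Finset α → ℝ) :
    nsq D m (Dn D g) ^ 2 ≤ nsq D (m + 1) (Up (Dn D g)) * nsq D (m + 1) g := by
  have e2 : nsq D m (Dn D g) = ipr D (m + 1) (Up (Dn D g)) g := by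
    rw [nsq_eq_ipr, ipr_Dn]
  rw [e2]
  unfold ipr nsq
  exact Finset.sum_mul_sq_le_sq_mul_sq _ _ _

end Vale.Agent.Lib.P335.H36J
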