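import Mathlib
import Vale.Agent.Lib.P335.helper36.JohnsonUD
import Vale.Agent.Lib.P335.helper59.JohnsonSlice

/-!
The spectral gap of the Johnson graph on the `k`-subsets of `D` is at least `|D|`
(Poincare inequality with constant `|D|` for mean-zero functions), in the exact form
asked for in block (J) of the graph case of P335.  Elementary proof by induction on `k`
through the up and down operators of `JohnsonUD`.
-/

namespace Vale.Agent.Lib.P335.H36J

open Finset Vale.Agent.Lib.P335.H59

variable {V : Type*} [DecidableEq V]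

/-- level sums of the down operator -/
theorem sum_Dn (D : Finset V) (m : ℕ) (g : Finset V → ℝ) :
    ∑ T ∈ D.powersetCard m, Dn D g T = ((m : ℝ) + 1) * ∑ S ∈ D.powersetCard (m + 1), g S := by
  unfold Dn
  rw [flag_sum D m (fun T x => g (insert x T)), Finset.mul_sum]
  refine Finset.sum_congr rfl fun S hS => ?_
  have hc : S.card = m + 1 := (mem_powersetCard.1 hS).2
  have h1 : ∀ x ∈ S, g (insert x (S.erase x)) = g S := fun x hx => by rw [insert_erase hx]
  rw [Finset.sum_congr rfl h1, Finset.sum_const, nsmul_eq_mul, hc]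
  push_cast
  ring

/-- the down operator contracts mean-zero functions by the Johnson factor -/
theorem gap_one (D : Finset V) : ∀ (m : ℕ) (g : Finset V → ℝ),
    ∑ S ∈ D.powersetCard (m + 1), g S = 0 →
    nsq D m (Dn D g) ≤ (m : ℝ) * ((D.card : ℝ) - m - 1) * nsq D (m + 1) g := by
  intro m
  induction m with
  | zero =>
    intro g h0
    have h1 := sum_Dn D 0 g
    rw [h0, mul_zero, powersetCard_zero, Finset.sum_singleton] at h1
    unfold nsq
    rw [powersetCard_zero, Finset.sum_singleton, h1]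
    simp
  | succ m ih =>
    intro g h0
    have hG0 : ∑ T ∈ D.powersetCard (m + 1), Dn D g T = 0 := by
      rw [sum_Dn, h0, mul_zero]
    have hih := ih (Dn D g) hG0
    have hcomm := nsq_Up_sub D m (Dn D g)
    have hcs := nsq_Dn_sq_le D (m + 1) g
    have hx0 := nsq_nonneg D (m + 1) (Dn D g)
    have hy0 := nsq_nonneg D (m + 2) g
    set x := nsq D (m + 1) (Dn D g) with hx
    set y := nsq D (m + 2) g with hy
    set u := nsq D (m + 2) (Up (Dn D g)) with hu
    set v := nsq D m (Dn D (Dn D g)) with hv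
    have hu_le : u ≤ ((m : ℝ) + 1) * ((D.card : ℝ) - m - 2) * x := by
      have : u = v + ((D.card : ℝ) - 2 * ((m : ℝ) + 1)) * x := by linarith
      rw [this]
      nlinarith
    have hxx : x ^ 2 ≤ ((m : ℝ) + 1) * ((D.card : ℝ) - m - 2) * x * y := by
      calc x ^ 2 ≤ u * y := hcs
        _ ≤ ((m : ℝ) + 1) * ((D.card : ℝ) - m - 2) * x * y :=
          mul_le_mul_of_nonneg_right hu_le hy0
    have goal : x ≤ ((m : ℝ) + 1) * ((D.card : ℝ) - m - 2) * y := by
      rcases hx0.eq_or_lt with hx00 | hxpos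
      · rw [← hx00]
        by_cases hN : m + 2 ≤ D.card
        · have h1 : (0 : ℝ) ≤ (D.card : ℝ) - m - 2 := by
            have : ((m + 2 : ℕ) : ℝ) ≤ (D.card : ℝ) := Nat.cast_le.2 hN
            push_cast at this
            linarith
          positivity
        · have hy00 : y = 0 := by
            rw [hy]
            unfold nsq
            rw [powersetCard_eq_empty.2 (by omega), Finset.sum_empty]
          rw [hy00, mul_zero]
      · by_contra hcon
        push Not at hcon
        have : ((m : ℝ) + 1) * ((D.card : ℝ) - m - 2) * x * y < x * x := by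
          have := mul_lt_mul_of_pos_left hcon hxpos
          nlinarith
        nlinarith
    have e : ((m + 1 : ℕ) : ℝ) * ((D.card : ℝ) - ((m + 1 : ℕ) : ℝ) - 1)
        = ((m : ℝ) + 1) * ((D.card : ℝ) - m - 2) := by
      push_cast; ring
    rw [e]
    exact goal

/-- a swap of an inside point with an outside point -/
theorem sw_eq_insert_erase {a b : V} {S : Finset V} (ha : a ∈ S) (hb : b ∉ S) :
    sw a b S = insert b (S.erase a) := by
  have hab : a ≠ b := fun h => hb (h ▸ ha)
  ext x
  by_cases hxa : x = a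
  · subst hxa
    rw [left_mem_sw]
    simp [hb, hab]
  · by_cases hxb : x = b
    · subst hxb
      rw [right_mem_sw]
      simp [ha]
    · rw [other_mem_sw hxa hxb]
      simp [hxa, hxb]

/-- the energy over all ordered pairs is twice the energy over swaps -/
theorem energy_pairs (D : Finset V) (g : Finset V → ℝ) {S : Finset V} (hS : S ⊆ D) :
    ∑ a ∈ D, ∑ b ∈ D, (g S - g (sw a b S)) ^ 2
      = 2 * ∑ a ∈ S, ∑ b ∈ D \ S, (g S - g (insert b (S.erase a))) ^ 2 := by
  have hzero : ∀ a b, (a ∈ S ↔ b ∈ S) → (g S - g (sw a b S)) ^ 2 = 0 := by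
    intro a b h
    rw [sw_eq_self h]; ring
  have hin : ∀ a ∈ S, ∑ b ∈ D, (g S - g (sw a b S)) ^ 2
      = ∑ b ∈ D \ S, (g S - g (insert b (S.erase a))) ^ 2 := by
    intro a ha
    rw [← Finset.sum_sdiff hS]
    have h2 : ∑ b ∈ S, (g S - g (sw a b S)) ^ 2 = 0 :=
      Finset.sum_eq_zero fun b hb => hzero a b ⟨fun _ => hb, fun _ => ha⟩
    rw [h2, add_zero]
    refine Finset.sum_congr rfl fun b hb => ?_
    rw [sw_eq_insert_erase ha (mem_sdiff.1 hb).2]
  have hout : ∀ a ∈ D \ S, ∑ b ∈ D, (g S - g (sw a b S)) ^ 2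
      = ∑ b ∈ S, (g S - g (insert a (S.erase b))) ^ 2 := by
    intro a ha
    have haS : a ∉ S := (mem_sdiff.1 ha).2
    rw [← Finset.sum_sdiff hS]
    have h2 : ∑ b ∈ D \ S, (g S - g (sw a b S)) ^ 2 = 0 :=
      Finset.sum_eq_zero fun b hb =>
        hzero a b ⟨fun h => absurd h haS, fun h => absurd h (mem_sdiff.1 hb).2⟩
    rw [h2, zero_add]
    refine Finset.sum_congr rfl fun b hb => ?_
    rw [sw_comm, sw_eq_insert_erase hb haS]
  rw [← Finset.sum_sdiff hS, Finset.sum_congr rfl hin, Finset.sum_congr rfl hout,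
    Finset.sum_comm]
  ring

/-- the swap energy in terms of the down operator -/
theorem energy_eq (D : Finset V) (m : ℕ) (g : Finset V → ℝ) :
    ∑ S ∈ D.powersetCard (m + 1), ∑ a ∈ S, ∑ b ∈ D \ S, (g S - g (insert b (S.erase a))) ^ 2
      = 2 * (((D.card : ℝ) - m) * ((m : ℝ) + 1)) * nsq D (m + 1) g - 2 * nsq D m (Dn D g) := by
  have h1 : ∑ S ∈ D.powersetCard (m + 1), ∑ a ∈ S, ∑ b ∈ D \ S,
        (g S - g (insert b (S.erase a))) ^ 2
      = ∑ S ∈ D.powersetCard (m + 1), ∑ a ∈ S,
          (fun T a => ∑ b ∈ D \ insert a T, (g (insert a T) - g (insert b T)) ^ 2)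
            (S.erase a) a := by
    refine Finset.sum_congr rfl fun S _ => Finset.sum_congr rfl fun a ha => ?_
    simp only [insert_erase ha]
  rw [h1, ← flag_sum D m
    (fun T a => ∑ b ∈ D \ insert a T, (g (insert a T) - g (insert b T)) ^ 2)]
  have h2 : ∀ T ∈ D.powersetCard m, ∑ a ∈ D \ T, ∑ b ∈ D \ insert a T,
        (g (insert a T) - g (insert b T)) ^ 2
      = 2 * ((D.card : ℝ) - m) * ∑ a ∈ D \ T, g (insert a T) ^ 2 - 2 * Dn D g T ^ 2 := by
    intro T hT
    obtain ⟨hTD, hc⟩ := mem_powersetCard.1 hT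
    have h3 : ∀ a ∈ D \ T, ∑ b ∈ D \ insert a T, (g (insert a T) - g (insert b T)) ^ 2
        = ∑ b ∈ D \ T, (g (insert a T) - g (insert b T)) ^ 2 := by
      intro a _
      rw [sdiff_insert]
      exact Finset.sum_erase _ (by ring)
    rw [Finset.sum_congr rfl h3]
    have hcard : ((D \ T).card : ℝ) = (D.card : ℝ) - m := by
      rw [card_sdiff_of_subset hTD, hc, Nat.cast_sub (hc ▸ card_le_card hTD)]
    have h4 : ∀ a ∈ D \ T, ∑ b ∈ D \ T, (g (insert a T) - g (insert b T)) ^ 2
        = ((D.card : ℝ) - m) * g (insert a T) ^ 2 - 2 * g (insert a T) * Dn D g T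
          + ∑ b ∈ D \ T, g (insert b T) ^ 2 := by
      intro a _
      have : ∀ b ∈ D \ T, (g (insert a T) - g (insert b T)) ^ 2
          = g (insert a T) ^ 2 - 2 * g (insert a T) * g (insert b T) + g (insert b T) ^ 2 :=
        fun b _ => by ring
      rw [Finset.sum_congr rfl this, Finset.sum_add_distrib, Finset.sum_sub_distrib,
        Finset.sum_const, nsmul_eq_mul, hcard, ← Finset.mul_sum]
      rfl
    rw [Finset.sum_congr rfl h4, Finset.sum_add_distrib, Finset.sum_sub_distrib,
      ← Finset.mul_sum, Finset.sum_const, nsmul_eq_mul, hcard]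
    have h5 : ∑ a ∈ D \ T, 2 * g (insert a T) * Dn D g T = 2 * Dn D g T ^ 2 := by
      rw [← Finset.sum_mul, ← Finset.mul_sum]
      unfold Dn
      ring
    rw [h5]
    ring
  rw [Finset.sum_congr rfl h2, Finset.sum_sub_distrib, ← Finset.mul_sum, ← Finset.mul_sum]
  have h6 : ∑ T ∈ D.powersetCard m, ∑ a ∈ D \ T, g (insert a T) ^ 2
      = ((m : ℝ) + 1) * nsq D (m + 1) g := by
    rw [flag_sum D m (fun T a => g (insert a T) ^ 2)]
    unfold nsq
    rw [Finset.mul_sum]
    refine Finset.sum_congr rfl fun S hS => ?_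
    have hc : S.card = m + 1 := (mem_powersetCard.1 hS).2
    have h7 : ∀ x ∈ S, g (insert x (S.erase x)) ^ 2 = g S ^ 2 :=
      fun x hx => by rw [insert_erase hx]
    rw [Finset.sum_congr rfl h7, Finset.sum_const, nsmul_eq_mul, hc]
    push_cast
    ring
  rw [h6]
  unfold nsq
  ring

/-- Poincare inequality with constant `|D|` on the Johnson slice (spectral gap of the
Johnson graph), in the form with the exchange maps `sw`. -/
theorem johnson_gap (D : Finset V) (k : ℕ) (g : Finset V → ℝ)
    (h0 : ∑ S ∈ D.powersetCard k, g S = 0) :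
    (D.card : ℝ) * ∑ S ∈ D.powersetCard k, g S ^ 2
      ≤ (1 / 4) * ∑ S ∈ D.powersetCard k, ∑ a ∈ D, ∑ b ∈ D, (g S - g (sw a b S)) ^ 2 := by
  rcases Nat.eq_zero_or_pos k with hk | hk
  · subst hk
    rw [powersetCard_zero, Finset.sum_singleton] at h0
    rw [powersetCard_zero, Finset.sum_singleton, Finset.sum_singleton, h0]
    have : ∀ a ∈ D, ∀ b ∈ D, ((0 : ℝ) - g (sw a b ∅)) ^ 2 = 0 := by
      intro a _ b _
      rw [sw_eq_self (by simp), h0]; ring
    rw [Finset.sum_eq_zero fun a ha => Finset.sum_eq_zero fun b hb => this a ha b hb]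
    simp
  · obtain ⟨m, rfl⟩ : ∃ m, k = m + 1 := ⟨k - 1, by omega⟩
    have h1 : ∑ S ∈ D.powersetCard (m + 1), ∑ a ∈ D, ∑ b ∈ D, (g S - g (sw a b S)) ^ 2
        = 2 * ∑ S ∈ D.powersetCard (m + 1), ∑ a ∈ S, ∑ b ∈ D \ S,
            (g S - g (insert b (S.erase a))) ^ 2 := by
      rw [Finset.mul_sum]
      exact Finset.sum_congr rfl fun S hS => energy_pairs D g (mem_powersetCard.1 hS).1
    rw [h1, energy_eq D m g]
    have hg := gap_one D m g h0
    have e : ∑ S ∈ D.powersetCard (m + 1), g S ^ 2 = nsq D (m + 1) g := rfl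
    rw [e]
    nlinarith [nsq_nonneg D (m + 1) g]

end Vale.Agent.Lib.P335.H36J
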