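import Mathlib
import Vale.Agent.Lib.P335.helper36.JohnsonGap
import Vale.Agent.Lib.P335.helper59.JohnsonSlice

/-!
The sharp form of the pair-moment inequality on the Johnson slice: the weak form of
`JohnsonSlice` combined with the spectral gap `johnson_gap`.
-/

namespace Vale.Agent.Lib.P335.H36J

open Finset Vale.Agent.Lib.P335.H59

variable {V : Type*} [DecidableEq V]

/-- Sharp pair-moment inequality on the Johnson slice: for mean-zero `g` on the `k`-subsets
of `D`, the sum over ordered pairs `a ≠ b` of the squared sum of `g` over `sep D k a b`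
divided by the size of `sep D k a b`
is at most the Johnson energy minus twice the squared norm of `g`. -/
theorem johnson_pair_sum_sharp (D : Finset V) (k : ℕ) (g : Finset V → ℝ)
    (h0 : ∑ S ∈ D.powersetCard k, g S = 0) :
    ∑ a ∈ D, ∑ b ∈ D,
        (if a = b then 0 else (∑ S ∈ sep D k a b, g S) ^ 2 / ((sep D k a b).card : ℝ))
      ≤ (1 / 4) * ∑ S ∈ D.powersetCard k, ∑ a ∈ D, ∑ b ∈ D, (g S - g (sw a b S)) ^ 2
        - 2 * ∑ S ∈ D.powersetCard k, g S ^ 2 := by
  have hw := johnson_pair_sum D k g h0
  have hg := johnson_gap D k g h0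
  set L := ∑ a ∈ D, ∑ b ∈ D,
    (if a = b then 0 else (∑ S ∈ sep D k a b, g S) ^ 2 / ((sep D k a b).card : ℝ)) with hL
  set E := (1 / 4) * ∑ S ∈ D.powersetCard k, ∑ a ∈ D, ∑ b ∈ D, (g S - g (sw a b S)) ^ 2
    with hE
  set Q := ∑ S ∈ D.powersetCard k, g S ^ 2 with hQ
  rcases Nat.eq_zero_or_pos D.card with hm | hm
  · have hD : D = ∅ := Finset.card_eq_zero.1 hm
    have hL0 : L = 0 := by rw [hL, hD]; simp
    have hE0 : E = 0 := by rw [hE, hD]; simp
    have hQ0 : Q = 0 := by
      rw [hQ]
      refine Finset.sum_eq_zero fun S hS => ?_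
      rw [hD] at hS h0
      rcases Nat.eq_zero_or_pos k with hk | hk
      · subst hk
        rw [powersetCard_zero, Finset.sum_singleton] at h0
        rw [powersetCard_zero, Finset.mem_singleton] at hS
        rw [hS, h0]; ring
      · rw [powersetCard_eq_empty.2 (by simpa using hk)] at hS
        exact absurd hS (Finset.notMem_empty _)
    rw [hL0, hE0, hQ0]; norm_num
  · have hmpos : (0 : ℝ) < (D.card : ℝ) := by exact_mod_cast hm
    have h1 : (D.card : ℝ) * L ≤ (D.card : ℝ) * (E - 2 * Q) := by
      have : (D.card : ℝ) * (E - 2 * Q) = ((D.card : ℝ) - 2) * E + 2 * (E - (D.card : ℝ) * Q) := by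
        ring
      rw [this]
      linarith
    exact le_of_mul_le_mul_left h1 hmpos

end Vale.Agent.Lib.P335.H36J
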